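import Vale.Agent.P127.U.H833.PMic
import Vale.Agent.P127.U.Lam.Red
import Vale.Agent.P127.U.Lam.TopD3
import Vale.Agent.P127.U.Lam.Norm
import Vale.Agent.P127.U.Lam.JL
import Vale.Agent.P127.U.Lam.EndWinH
import Vale.Agent.P127.U.Lam.CoreDef
import Vale.Agent.P127.M3.FrontI

/-!
# P127 / U : the chain to the maximal inequality, with the open blocks as hypotheses (helper137)

Integration check : `PHyp → KMax 2`, and `PLipH → PInc`.
-/

set_option autoImplicit false

namespace Vale.Agent.P127.U.Fin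

open Vale.Agent.P127 Vale.Agent.P127.U

theorem jf_of_hyp (h : TopD.PHyp) : ∀ b : ℝ, 0 < b → JF 2 b :=
  top_of pXtrL' pJL (noXtr_of Norm.pNorm (psat_of (TopD.fsat_of H833.pMic h)))

theorem kmax_of_hyp (h : TopD.PHyp) : M3.KMax 2 := M3.kmax_of_JF_two (jf_of_hyp h)

theorem pInc_of_lip (h : Inc.PLipH) : Inc.PInc := EndWin.pInc_of' pFix h

end Vale.Agent.P127.U.Fin
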